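import Vale.Agent.P038.H139.Steps

/-!
# P038 (H132): two min cuts; the inequality m1 ≤ m2 (density interpolation)
-/

namespace Vale.Agent.P038.H132

open Finset Vale.Agent.P038.H139

universe u

variable {V : Type u} [Fintype V]

/-- `F_μ(S) = μ w(N[S]) - w(S)`. -/
noncomputable def Fm (D : OGraph V) (w : V → ℝ) (μ : ℝ) (S : Finset V) : ℝ :=
  μ * W w (cl D S) - W w S

/-- `c(S) = w(N[S]) - w(S)`. -/
noncomputable def cc (D : OGraph V) (w : V → ℝ) (S : Finset V) : ℝ :=
  W w (cl D S) - W w S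

/-- The cost of a pair of families. -/
noncomputable def cost (D : OGraph V) (w : V → ℝ) (X Y : V → Finset V) : ℝ :=
  ∑ a, w a * cc D w (X a) + ∑ b, w b * cc D w (Y b)

/-- Inner feasible pairs. -/
structure Inner (D : OGraph V) (X Y : V → Finset V) : Prop where
  memX : ∀ a, a ∈ X a
  memY : ∀ b, b ∈ Y b
  compat : ∀ a b, a ≠ b → b ∈ cl D (X a) → a ∉ cl D (Y b)

/-- Outer feasible pairs. -/
structure Outer (D : OGraph V) (P T : V → Finset V) : Prop where
  memP : ∀ a, a ∈ P a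
  memT : ∀ b, b ∈ T b
  arcP : ∀ a b, D.arc a b → b ∈ P a
  arcT : ∀ a b, D.arc a b → b ∈ T a
  compat : ∀ a b, a ≠ b → b ∈ P a → a ∉ T b

theorem subset_cl (D : OGraph V) (S : Finset V) : S ⊆ cl D S := fun _ hz => mem_cl.2 (Or.inl hz)

theorem cc_eq_Fm (D : OGraph V) (w : V → ℝ) (S : Finset V) : cc D w S = Fm D w 1 S := by
  unfold cc Fm
  rw [one_mul]

theorem cc_eq_sdiff [DecidableEq V] (D : OGraph V) (w : V → ℝ) (S : Finset V) :
    cc D w S = W w (cl D S \ S) := by
  unfold cc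
  rw [W_sdiff (subset_cl D S)]

theorem cc_nonneg {w : V → ℝ} (hw : ∀ v, 0 ≤ w v) (D : OGraph V) (S : Finset V) :
    0 ≤ cc D w S := by
  unfold cc
  have := W_mono hw (subset_cl D S)
  linarith

/-- Submodularity. -/
theorem Fm_submod [DecidableEq V] {w : V → ℝ} (hw : ∀ v, 0 ≤ w v) (D : OGraph V) {μ : ℝ}
    (hμ : 0 ≤ μ) (S T : Finset V) :
    Fm D w μ (S ∪ T) + Fm D w μ (S ∩ T) ≤ Fm D w μ S + Fm D w μ T := by
  have h1 : W w (cl D (S ∪ T)) + W w (cl D (S ∩ T)) ≤ W w (cl D S) + W w (cl D T) := by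
    have h2 : cl D (S ∩ T) ⊆ cl D S ∩ cl D T := by
      intro z hz
      exact Finset.mem_inter.2 ⟨cl_mono Finset.inter_subset_left hz,
        cl_mono Finset.inter_subset_right hz⟩
    have h3 := W_mono hw h2
    have h4 : W w (cl D S ∪ cl D T) + W w (cl D S ∩ cl D T) = W w (cl D S) + W w (cl D T) :=
      Finset.sum_union_inter
    rw [cl_union]
    linarith
  have h5 : W w (S ∪ T) + W w (S ∩ T) = W w S + W w T := Finset.sum_union_inter
  have h6 := mul_le_mul_of_nonneg_left h1 hμ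
  unfold Fm
  linarith

theorem exists_min_between (A B : Finset V) (hAB : A ⊆ B) (f : Finset V → ℝ) :
    ∃ Z, A ⊆ Z ∧ Z ⊆ B ∧ ∀ Z', A ⊆ Z' → Z' ⊆ B → f Z ≤ f Z' := by
  classical
  obtain ⟨Z, hZ, hmin⟩ := Finset.exists_min_image (B.powerset.filter fun Z => A ⊆ Z) f
    ⟨A, Finset.mem_filter.2 ⟨Finset.mem_powerset.2 hAB, Finset.Subset.refl _⟩⟩
  obtain ⟨h1, h2⟩ := Finset.mem_filter.1 hZ
  refine ⟨Z, h2, Finset.mem_powerset.1 h1, fun Z' h3 h4 => ?_⟩
  exact hmin Z' (Finset.mem_filter.2 ⟨Finset.mem_powerset.2 h4, h3⟩)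

/-- Iterated intersection with row minimisers. -/
theorem inter_le [DecidableEq V] (F : Finset V → ℝ) (Wf Q : V → Finset V) (S0 : Finset V)
    (hstep : ∀ s ∈ S0, ∀ Z, Z ⊆ Q s → F (Wf s ∩ Z) ≤ F Z) (Z : Finset V)
    (hZ : ∀ s ∈ S0, Z ⊆ Q s) : F (Z.filter fun x => ∀ s ∈ S0, x ∈ Wf s) ≤ F Z := by
  induction S0 using Finset.induction_on with
  | empty =>
    have : (Z.filter fun x => ∀ s ∈ (∅ : Finset V), x ∈ Wf s) = Z := by
      ext x; simp
    rw [this]
  | insert s S0 hs ih =>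
    have h1 := ih (fun s' hs' => hstep s' (Finset.mem_insert_of_mem hs'))
      (fun s' hs' => hZ s' (Finset.mem_insert_of_mem hs'))
    have h2 : (Z.filter fun x => ∀ s' ∈ insert s S0, x ∈ Wf s') =
        Wf s ∩ (Z.filter fun x => ∀ s' ∈ S0, x ∈ Wf s') := by
      ext x
      simp only [Finset.mem_filter, Finset.mem_inter, Finset.mem_insert]
      constructor
      · rintro ⟨h3, h4⟩
        exact ⟨h4 s (Or.inl rfl), h3, fun s' hs' => h4 s' (Or.inr hs')⟩
      · rintro ⟨h3, h4, h5⟩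
        refine ⟨h4, fun s' hs' => ?_⟩
        rcases hs' with rfl | hs'
        · exact h3
        · exact h5 s' hs'
    rw [h2]
    refine (hstep s (Finset.mem_insert_self _ _) _ ?_).trans h1
    exact (Finset.filter_subset _ _).trans (hZ s (Finset.mem_insert_self _ _))

theorem swap_sum [DecidableEq V] (w : V → ℝ) (S : V → Finset V) :
    ∑ b, w b * W w (S b) = ∑ a, w a * W w (Finset.univ.filter fun b => a ∈ S b) := by
  have e1 : ∀ x, w x * W w (Finset.univ.filter fun u => x ∈ S u) =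
      ∑ u, if x ∈ S u then w x * w u else 0 := by
    intro x
    unfold W
    rw [Finset.sum_filter, Finset.mul_sum]
    refine Finset.sum_congr rfl fun u _ => ?_
    split_ifs <;> simp
  have e2 : ∀ u, w u * W w (S u) = ∑ x, if x ∈ S u then w x * w u else 0 := by
    intro u
    unfold W
    rw [← Finset.sum_filter, Finset.mul_sum]
    have : (Finset.univ.filter fun x => x ∈ S u) = S u := by
      ext x
      simp
    rw [this]
    exact Finset.sum_congr rfl fun x _ => mul_comm _ _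
  rw [Finset.sum_congr rfl fun x _ => e1 x, Finset.sum_congr rfl fun u _ => e2 u,
    Finset.sum_comm]

end Vale.Agent.P038.H132
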