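import Vale.Agent.P038.H132.Main
import Vale.Agent.P038.H38.Strong

/-!
# P038 (H132): Seymour's second neighbourhood conjecture
-/

namespace Vale.Agent.P038.H132

open Finset Vale.Agent.P038.H139

universe u

variable {V : Type u} [Fintype V]

/-- `(G)` in terms of `cc`. -/
theorem cc_cl_le {lam : ℝ} {D : OGraph V} {w : V → ℝ} (h : Opt lam D w) (S : Finset V) :
    cc D w (cl D S) ≤ lam * cc D w S := by
  classical
  have h1 := step3 h S
  have e1 : cl D S \ S = outS D S \ S := by
    ext z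
    simp only [Finset.mem_sdiff, mem_cl, mem_outS]
    tauto
  have e2 : cl D (cl D S) \ cl D S = outS D (outS D S \ S) \ (S ∪ (outS D S \ S)) := by
    ext z
    simp only [Finset.mem_sdiff, Finset.mem_union, mem_cl, mem_outS]
    constructor
    · rintro ⟨h2, h3⟩
      push Not at h3
      obtain ⟨h3, h4⟩ := h3
      rcases h2 with h2 | ⟨y, hy, hyz⟩
      · rcases h2 with h2 | ⟨y, hy, hyz⟩
        · exact absurd h2 h3
        · exact absurd hyz (h4 y hy)
      · refine ⟨⟨y, ⟨?_, ?_⟩, hyz⟩, ?_⟩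
        · rcases hy with hy | hy
          · exact absurd hyz (h4 y hy)
          · exact hy
        · intro hyS
          exact h4 y hyS hyz
        · rintro (h5 | ⟨⟨y', hy', h5⟩, _⟩)
          · exact h3 h5
          · exact h4 y' hy' h5
    · rintro ⟨⟨y, ⟨hy, _⟩, hyz⟩, h2⟩
      push Not at h2
      obtain ⟨h2, h3⟩ := h2
      refine ⟨Or.inr ⟨y, Or.inr hy, hyz⟩, ?_⟩
      rintro (h4 | h4)
      · exact h2 h4
      · exact h2 (h3 h4)
  rw [cc_eq_sdiff, cc_eq_sdiff, e1, e2]
  exact h1

/-- There is no normal form for `lam < 1`. -/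
theorem noNF {lam : ℝ} (h0 : 0 ≤ lam) (h1 : lam < 1) [Nonempty V] (D : OGraph V) (w : V → ℝ) :
    ¬ NF lam D w := by
  classical
  intro h
  have hw := h.nonneg
  have hopt := h.toOpt
  -- a minimising inner pair
  have hne : {p : (V → Finset V) × (V → Finset V) | Inner D p.1 p.2}.Nonempty := by
    refine ⟨(fun a => {a}, fun b => {b}), ?_⟩
    refine ⟨fun a => Finset.mem_singleton_self a, fun b => Finset.mem_singleton_self b, ?_⟩
    intro a b hab hb ha
    rw [mem_cl] at hb ha
    simp only [Finset.mem_singleton, exists_eq_left] at hb ha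
    rcases hb with hb | hb
    · exact hab hb.symm
    · rcases ha with ha | ha
      · exact hab ha
      · exact D.asymm _ _ hb ha
  obtain ⟨⟨X, Y⟩, hXY, hmin⟩ := Set.exists_min_image
    {p : (V → Finset V) × (V → Finset V) | Inner D p.1 p.2} (fun p => cost D w p.1 p.2)
    (Set.toFinite _) hne
  have hXY' : Inner D X Y := hXY
  have hm : ∀ X' Y', Inner D X' Y' → cost D w X Y ≤ cost D w X' Y' :=
    fun X' Y' h' => hmin (X', Y') h'
  have hout : Outer D (fun a => cl D (X a)) (fun b => cl D (Y b)) :=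
    { memP := fun a => subset_cl D _ (hXY'.memX a)
      memT := fun b => subset_cl D _ (hXY'.memY b)
      arcP := fun a b hab => cl_of_arc (hXY'.memX a) hab
      arcT := fun a b hab => cl_of_arc (hXY'.memY a) hab
      compat := hXY'.compat }
  have h2 := m12 hw hm hout
  have h3 : cost D w (fun a => cl D (X a)) (fun b => cl D (Y b)) ≤ lam * cost D w X Y := by
    unfold cost
    rw [mul_add, Finset.mul_sum, Finset.mul_sum]
    refine add_le_add ?_ ?_
    · refine Finset.sum_le_sum fun a _ => ?_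
      have := mul_le_mul_of_nonneg_left (cc_cl_le hopt (X a)) (hw a)
      linarith
    · refine Finset.sum_le_sum fun a _ => ?_
      have := mul_le_mul_of_nonneg_left (cc_cl_le hopt (Y a)) (hw a)
      linarith
  have hX0 : 0 ≤ ∑ a, w a * cc D w (X a) :=
    Finset.sum_nonneg fun a _ => mul_nonneg (hw a) (cc_nonneg hw D _)
  have hY0 : 0 ≤ ∑ a, w a * cc D w (Y a) :=
    Finset.sum_nonneg fun a _ => mul_nonneg (hw a) (cc_nonneg hw D _)
  have h4 : cost D w X Y ≤ 0 := by
    by_contra hcon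
    push Not at hcon
    nlinarith
  have hX1 : ∑ a, w a * cc D w (X a) = 0 := by
    unfold cost at h4
    linarith
  have hY1 : ∑ a, w a * cc D w (Y a) = 0 := by
    unfold cost at h4
    linarith
  -- a set of cost zero is everything
  have huniv : ∀ S : Finset V, S.Nonempty → cc D w S = 0 → ∀ z, z ∈ S := by
    intro S hS hc z
    by_contra hz
    obtain ⟨y, hy⟩ := H38.strong_of_NF h S hS ⟨z, hz⟩
    have hy' := H38.mem_L1'.1 hy
    have h5 : w y ≤ W w (cl D S \ S) := by
      unfold W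
      exact Finset.single_le_sum (f := w) (fun v _ => hw v) (Finset.mem_sdiff.2 hy')
    rw [← cc_eq_sdiff, hc] at h5
    linarith [h.pos y]
  have hXu : ∀ a z, z ∈ X a := by
    intro a
    have h5 := (Finset.sum_eq_zero_iff_of_nonneg
      (fun a _ => mul_nonneg (hw a) (cc_nonneg hw D _))).1 hX1 a (Finset.mem_univ _)
    have h6 : cc D w (X a) = 0 := by
      rcases mul_eq_zero.1 h5 with h6 | h6
      · exact absurd h6 (h.pos a).ne'
      · exact h6
    exact huniv _ ⟨a, hXY'.memX a⟩ h6
  have hYu : ∀ a z, z ∈ Y a := by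
    intro a
    have h5 := (Finset.sum_eq_zero_iff_of_nonneg
      (fun a _ => mul_nonneg (hw a) (cc_nonneg hw D _))).1 hY1 a (Finset.mem_univ _)
    have h6 : cc D w (Y a) = 0 := by
      rcases mul_eq_zero.1 h5 with h6 | h6
      · exact absurd h6 (h.pos a).ne'
      · exact h6
    exact huniv _ ⟨a, hXY'.memY a⟩ h6
  obtain ⟨a, b, hab⟩ := H38.exists_arc_of_NF h
  refine hXY'.compat a b ?_ (subset_cl D _ (hXu a b)) (subset_cl D _ (hYu b a))
  rintro rfl
  exact D.loopless _ hab

/-- **Seymour's second neighbourhood conjecture**, weighted form. -/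
theorem snc_weighted [Nonempty V] (D : OGraph V) (w : V → ℝ) (hw : ∀ v, 0 ≤ w v) :
    ∃ v, ∑ u ∈ N1 D v, w u ≤ ∑ u ∈ N2 D v, w u := by
  classical
  by_contra hcon
  push Not at hcon
  -- the minimal gap
  obtain ⟨v0, -, hv0⟩ := Finset.exists_min_image Finset.univ
    (fun v => ∑ u ∈ N1 D v, w u - ∑ u ∈ N2 D v, w u) Finset.univ_nonempty
  set δ := ∑ u ∈ N1 D v0, w u - ∑ u ∈ N2 D v0, w u with hδ
  have hδ0 : 0 < δ := by
    have := hcon v0
    rw [hδ]
    linarith
  set t := ∑ u, w u with ht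
  have ht0 : 0 ≤ t := Finset.sum_nonneg fun v _ => hw v
  have hN1t : ∀ v, ∑ u ∈ N1 D v, w u ≤ t := fun v =>
    Finset.sum_le_sum_of_subset_of_nonneg (Finset.subset_univ _) fun u _ _ => hw u
  have hδt : δ ≤ t := by
    have h1 := hN1t v0
    have h2 : 0 ≤ ∑ u ∈ N2 D v0, w u := Finset.sum_nonneg fun v _ => hw v
    rw [hδ]
    linarith
  have ht1 : 0 < t := lt_of_lt_of_le hδ0 hδt
  set lam := 1 - δ / (2 * t) with hlam
  have h3 : δ / (2 * t) ≤ 1 := by
    rw [div_le_one (by positivity)]
    linarith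
  have h4 : 0 < δ / (2 * t) := by positivity
  obtain ⟨v, hv⟩ := snc_of_noNF (lam := lam) (by rw [hlam]; linarith)
    (fun V' _ _ D' w' => noNF (by rw [hlam]; linarith) (by rw [hlam]; linarith) D' w') D w hw
  have h5 := hv0 v (Finset.mem_univ _)
  have h6 : δ / (2 * t) * ∑ u ∈ N1 D v, w u ≤ δ / 2 := by
    have h7 := mul_le_mul_of_nonneg_left (hN1t v) h4.le
    have h8 : δ / (2 * t) * t = δ / 2 := by
      field_simp
    linarith
  rw [hlam] at hv
  have h9 : (1 - δ / (2 * t)) * ∑ u ∈ N1 D v, w u =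
      ∑ u ∈ N1 D v, w u - δ / (2 * t) * ∑ u ∈ N1 D v, w u := by ring
  linarith

/-- **Seymour's second neighbourhood conjecture.** -/
theorem snc [Nonempty V] (D : OGraph V) : ∃ v, (N1 D v).card ≤ (N2 D v).card := by
  obtain ⟨v, hv⟩ := snc_weighted D (fun _ => (1 : ℝ)) (fun _ => zero_le_one)
  refine ⟨v, ?_⟩
  simp only [Finset.sum_const, nsmul_eq_mul, mul_one] at hv
  exact_mod_cast hv

end Vale.Agent.P038.H132
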