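import Vale.Agent.P038.H132.Cut

/-!
# P038 (H132): m1 ≤ m2
-/

namespace Vale.Agent.P038.H132

open Finset Vale.Agent.P038.H139

universe u

variable {V : Type u} [Fintype V] [DecidableEq V] {D : OGraph V} {w : V → ℝ}

open Classical in
/-- The closed in-neighbourhood. -/
noncomputable def Nin (D : OGraph V) (a : V) : Finset V :=
  Finset.univ.filter fun s => s = a ∨ D.arc s a

theorem mem_Nin {s a : V} : s ∈ Nin D a ↔ s = a ∨ D.arc s a := by
  classical
  simp [Nin]

/-- Rows of the intersection over the closed in-neighbourhood. -/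
noncomputable def cap (D : OGraph V) (P : V → Finset V) (a : V) : Finset V :=
  Finset.univ.filter fun x => ∀ s ∈ Nin D a, x ∈ P s

theorem mem_cap {P : V → Finset V} {a x : V} : x ∈ cap D P a ↔ ∀ s ∈ Nin D a, x ∈ P s := by
  simp [cap]

/-- Complement of the transpose of `T` plus the diagonal. -/
def Qf (T : V → Finset V) (a : V) : Finset V :=
  Finset.univ.filter fun b => b = a ∨ a ∉ T b

theorem mem_Qf {T : V → Finset V} {a b : V} : b ∈ Qf T a ↔ b = a ∨ a ∉ T b := by
  simp [Qf]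

/-- The second family of the inner cut. -/
noncomputable def Yf (D : OGraph V) (U : V → Finset V) (b : V) : Finset V :=
  Finset.univ.filter fun a => a = b ∨ b ∉ cl D (U a)

theorem mem_Yf {U : V → Finset V} {a b : V} : a ∈ Yf D U b ↔ a = b ∨ b ∉ cl D (U a) := by
  simp [Yf]

omit [DecidableEq V] in
theorem cl_of_arc {S : Finset V} {x b : V} (hx : x ∈ S) (h : D.arc x b) : b ∈ cl D S :=
  mem_cl.2 (Or.inr ⟨x, hx, h⟩)

/-- (1'): no in-neighbour of `a` lies in the closed out-neighbourhood of a left interior. -/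
theorem not_mem_cl_cap {T U : V → Finset V} (hT : ∀ a b, D.arc a b → b ∈ T a)
    (hU : ∀ s, U s ⊆ Qf T s) {a b : V} (hba : D.arc b a) : b ∉ cl D (cap D U a) := by
  intro h
  rw [mem_cl] at h
  rcases h with h | ⟨x, hx, hxb⟩
  · have h1 := hU a (mem_cap.1 h a (mem_Nin.2 (Or.inl rfl)))
    rcases mem_Qf.1 h1 with h2 | h2
    · rw [h2] at hba
      exact D.loopless _ hba
    · exact h2 (hT _ _ hba)
  · have h1 := hU b (mem_cap.1 hx b (mem_Nin.2 (Or.inr hba)))
    rcases mem_Qf.1 h1 with h2 | h2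
    · rw [h2] at hxb
      exact D.loopless _ hxb
    · exact h2 (hT _ _ hxb)

/-- The inner cut is feasible. -/
theorem inner_feasible {P T U : V → Finset V} (h : Outer D P T) (hPU : ∀ s, P s ⊆ U s)
    (hU : ∀ s, U s ⊆ Qf T s) : Inner D (cap D P) (Yf D U) where
  memX a := by
    rw [mem_cap]
    intro s hs
    rcases mem_Nin.1 hs with rfl | h1
    · exact h.memP _
    · exact h.arcP _ _ h1
  memY b := mem_Yf.2 (Or.inl rfl)
  compat a b hab hb ha := by
    have hPQ : ∀ s, P s ⊆ Qf T s := fun s => (hPU s).trans (hU s)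
    -- some y ∈ Y b ∩ N⁻[a]
    have hy : ∃ y ∈ Yf D U b, y ∈ Nin D a := by
      rw [mem_cl] at ha
      rcases ha with ha | ⟨y, hy, hya⟩
      · exact ⟨a, ha, mem_Nin.2 (Or.inl rfl)⟩
      · exact ⟨y, hy, mem_Nin.2 (Or.inr hya)⟩
    obtain ⟨y, hyb, hya⟩ := hy
    have hsub : cap D P a ⊆ U y := by
      intro x hx
      exact hPU y (mem_cap.1 hx y hya)
    have hbU : b ∈ cl D (U y) := cl_mono hsub hb
    rcases mem_Yf.1 hyb with h1 | h1
    · subst h1
      rcases mem_Nin.1 hya with h2 | h2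
      · exact hab h2.symm
      · exact not_mem_cl_cap h.arcT hPQ h2 hb
    · exact h1 hbU

/-- Cell count for the outer family `T`. -/
theorem outer_count (hw : ∀ v, 0 ≤ w v) {P T : V → Finset V} (h : Outer D P T) :
    ∑ a, w a * (W w (Qf T a) - W w (cap D (Qf T) a)) ≤ ∑ b, w b * cc D w (T b) := by
  have e1 : ∑ b, w b * cc D w (T b) = ∑ b, w b * W w (cl D (T b) \ T b) :=
    Finset.sum_congr rfl fun b _ => by rw [cc_eq_sdiff]
  rw [e1, swap_sum]
  refine Finset.sum_le_sum fun a _ => mul_le_mul_of_nonneg_left ?_ (hw a)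
  have hsub : cap D (Qf T) a ⊆ Qf T a := fun x hx =>
    mem_cap.1 hx a (mem_Nin.2 (Or.inl rfl))
  rw [← W_sdiff hsub]
  refine W_mono hw ?_
  intro b hb
  obtain ⟨hb1, hb2⟩ := Finset.mem_sdiff.1 hb
  rw [mem_cap] at hb2
  push Not at hb2
  obtain ⟨s, hs, hbs⟩ := hb2
  rw [mem_Qf] at hbs
  push Not at hbs
  obtain ⟨hbs1, hsT⟩ := hbs
  have hsa : D.arc s a := by
    rcases mem_Nin.1 hs with rfl | h1
    · exact absurd hb1 (by rw [mem_Qf]; push Not; exact ⟨hbs1, hsT⟩)
    · exact h1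
  have hab : b ≠ a := by
    rintro rfl
    -- s ∈ T b, arc s b: b ∈ P s, so s ∉ T b
    exact h.compat s b (fun h1 => hbs1 h1.symm) (h.arcP _ _ hsa) hsT
  have haT : a ∉ T b := by
    rcases mem_Qf.1 hb1 with h1 | h1
    · exact absurd h1 hab
    · exact h1
  refine Finset.mem_filter.2 ⟨Finset.mem_univ _, Finset.mem_sdiff.2 ⟨?_, haT⟩⟩
  exact cl_of_arc hsT hsa

/-- Cell count for the inner family `Yf`. -/
theorem inner_count (hw : ∀ v, 0 ≤ w v) {T U : V → Finset V}
    (hT : ∀ a b, D.arc a b → b ∈ T a) (hU : ∀ s, U s ⊆ Qf T s) :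
    ∑ b, w b * cc D w (Yf D U b) ≤
      ∑ a, w a * (W w (cl D (U a)) - W w (cl D (cap D U a))) := by
  have e1 : ∑ b, w b * cc D w (Yf D U b) = ∑ b, w b * W w (cl D (Yf D U b) \ Yf D U b) :=
    Finset.sum_congr rfl fun b _ => by rw [cc_eq_sdiff]
  rw [e1, swap_sum]
  refine Finset.sum_le_sum fun a _ => mul_le_mul_of_nonneg_left ?_ (hw a)
  have hsub : cl D (cap D U a) ⊆ cl D (U a) := cl_mono fun x hx =>
    mem_cap.1 hx a (mem_Nin.2 (Or.inl rfl))
  rw [← W_sdiff hsub]
  refine W_mono hw ?_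
  intro b hb
  have hb' := (Finset.mem_filter.1 hb).2
  obtain ⟨hb1, hb2⟩ := Finset.mem_sdiff.1 hb'
  rw [mem_Yf] at hb2
  push Not at hb2
  obtain ⟨hab, hbU⟩ := hb2
  rw [mem_cl] at hb1
  rcases hb1 with hb1 | ⟨s, hs, hsa⟩
  · rcases mem_Yf.1 hb1 with h1 | h1
    · exact absurd h1 hab
    · exact absurd hbU h1
  · refine Finset.mem_sdiff.2 ⟨hbU, ?_⟩
    intro hbc
    rcases mem_Yf.1 hs with h1 | h1
    · subst h1
      exact not_mem_cl_cap hT hU hsa hbc
    · apply h1
      refine cl_mono ?_ hbc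
      intro x hx
      exact mem_cap.1 hx s (mem_Nin.2 (Or.inr hsa))

/-- Row step: intersecting with a minimiser on `[P_s, Q_s]`. -/
theorem row_step (hw : ∀ v, 0 ≤ w v) {μ : ℝ} (hμ : 0 ≤ μ) {A B M : Finset V}
    (hAM : A ⊆ M) (hMB : M ⊆ B) (hmin : ∀ Z, A ⊆ Z → Z ⊆ B → Fm D w μ M ≤ Fm D w μ Z)
    (Z : Finset V) (hZ : Z ⊆ B) : Fm D w μ (M ∩ Z) ≤ Fm D w μ Z := by
  have h1 := Fm_submod hw D hμ M Z
  have h2 := hmin (M ∪ Z) (hAM.trans Finset.subset_union_left) (Finset.union_subset hMB hZ)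
  linarith

/-- **m1 ≤ m2** : the key inequality, row optimal case, discretised. -/
theorem key (hw : ∀ v, 0 ≤ w v) {m : ℝ} (hm : ∀ X Y, Inner D X Y → m ≤ cost D w X Y)
    {P T : V → Finset V} (h : Outer D P T)
    (hopt : ∀ s, ∀ Z, P s ⊆ Z → Z ⊆ Qf T s → cc D w (P s) ≤ cc D w Z) (M : ℕ) (hM : 0 < M) :
    (M : ℝ) * m ≤ M * cost D w P T + (∑ v, w v) * (∑ v, w v) := by
  have hPQ : ∀ s, P s ⊆ Qf T s := by
    intro s x hx
    rw [mem_Qf]
    by_cases hxs : x = s
    · exact Or.inl hxs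
    · exact Or.inr (h.compat s x (fun h1 => hxs h1.symm) hx)
  have hMpos : (0 : ℝ) < M := by exact_mod_cast hM
  have hMne : (M : ℝ) ≠ 0 := hMpos.ne'
  -- the selected minimisers
  have hsel : ∀ (k : ℕ) (s : V), ∃ Z, P s ⊆ Z ∧ Z ⊆ Qf T s ∧
      ∀ Z', P s ⊆ Z' → Z' ⊆ Qf T s → Fm D w (k / M) Z ≤ Fm D w (k / M) Z' :=
    fun k s => exists_min_between (P s) (Qf T s) (hPQ s) (Fm D w (k / M))
  choose U hU1 hU2 hU3 using hsel
  have hμ : ∀ k : ℕ, (0 : ℝ) ≤ (k : ℝ) / M := fun k => by positivity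
  -- cap P ⊆ cap (U k)
  have hcapPU : ∀ k a, cap D P a ⊆ cap D (U k) a := by
    intro k a x hx
    rw [mem_cap] at hx ⊢
    exact fun s hs => hU1 k s (hx s hs)
  have hcapPQ : ∀ a, cap D P a ⊆ cap D (Qf T) a := by
    intro a x hx
    rw [mem_cap] at hx ⊢
    exact fun s hs => hPQ s (hx s hs)
  -- the minimisers on [I_a, J_a] inside cap (U k)
  have hZsel : ∀ (k : ℕ) (a : V), ∃ Z, cap D P a ⊆ Z ∧ Z ⊆ cap D (Qf T) a ∧
      Z ⊆ cap D (U k) a ∧ ∀ Z', cap D P a ⊆ Z' → Z' ⊆ cap D (Qf T) a →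
        Fm D w (k / M) Z ≤ Fm D w (k / M) Z' := by
    intro k a
    obtain ⟨Z, h1, h2, h3⟩ := exists_min_between (cap D P a) (cap D (Qf T) a) (hcapPQ a)
      (Fm D w (k / M))
    refine ⟨Z.filter fun x => ∀ s ∈ Nin D a, x ∈ U k s, ?_, ?_, ?_, ?_⟩
    · intro x hx
      refine Finset.mem_filter.2 ⟨h1 hx, ?_⟩
      exact mem_cap.1 (hcapPU k a hx)
    · exact (Finset.filter_subset _ _).trans h2
    · intro x hx
      exact mem_cap.2 (Finset.mem_filter.1 hx).2
    · intro Z' h4 h5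
      refine le_trans ?_ (h3 Z' h4 h5)
      refine inter_le (Fm D w (k / M)) (U k) (Qf T) (Nin D a) ?_ Z ?_
      · intro s _ Z1 hZ1
        exact row_step hw (hμ k) (hU1 k s) (hU2 k s) (hU3 k s) Z1 hZ1
      · intro s hs x hx
        exact mem_cap.1 (h2 hx) s hs
  choose Z hZ1 hZ2 hZ3 hZ4 using hZsel
  -- envelope for the rows
  have env1 : ∀ a, ∑ k ∈ Finset.range M, W w (cl D (U (k + 1) a)) ≤
      M * (cc D w (P a) + W w (Qf T a)) := by
    intro a
    have h1 : ∀ k, W w (cl D (U (k + 1) a)) ≤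
        M * Fm D w ((k + 1 : ℕ) / M) (U (k + 1) a) - M * Fm D w ((k : ℕ) / M) (U k a) := by
      intro k
      have h2 := hU3 k a (U (k + 1) a) (hU1 _ _) (hU2 _ _)
      have h3 : Fm D w ((k + 1 : ℕ) / M) (U (k + 1) a) - Fm D w ((k : ℕ) / M) (U (k + 1) a) =
          W w (cl D (U (k + 1) a)) / M := by
        unfold Fm
        push_cast
        field_simp
        ring
      have h4 : W w (cl D (U (k + 1) a)) = M * (W w (cl D (U (k + 1) a)) / M) := by
        field_simp
      rw [h4, ← h3]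
      nlinarith
    refine (Finset.sum_le_sum fun k _ => h1 k).trans ?_
    rw [Finset.sum_range_sub (fun k : ℕ => M * Fm D w ((k : ℕ) / M) (U k a))]
    have h5 : Fm D w ((M : ℕ) / M) (U M a) ≤ cc D w (P a) := by
      refine (hU3 M a (P a) (Finset.Subset.refl _) (hPQ a)).trans ?_
      rw [cc_eq_Fm, div_self hMne]
    have h6 : -W w (Qf T a) ≤ Fm D w ((0 : ℕ) / M) (U 0 a) := by
      have := W_mono hw (hU2 0 a)
      unfold Fm
      simp only [Nat.cast_zero, zero_div, zero_mul, zero_sub, neg_le_neg_iff]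
      exact this
    nlinarith
  -- envelope for the intersections
  have env2 : ∀ a, M * (cc D w (cap D P a) + W w (cap D (Qf T) a)) - ∑ v, w v ≤
      ∑ k ∈ Finset.range M, W w (cl D (cap D (U (k + 1)) a)) := by
    intro a
    have h1 : ∀ k, M * Fm D w ((k + 1 : ℕ) / M) (Z (k + 1) a) - M * Fm D w ((k : ℕ) / M) (Z k a)
        ≤ W w (cl D (Z k a)) := by
      intro k
      have h2 := hZ4 (k + 1) a (Z k a) (hZ1 _ _) (hZ2 _ _)
      have h3 : Fm D w ((k + 1 : ℕ) / M) (Z k a) - Fm D w ((k : ℕ) / M) (Z k a) =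
          W w (cl D (Z k a)) / M := by
        unfold Fm
        push_cast
        field_simp
        ring
      have h4 : W w (cl D (Z k a)) = M * (W w (cl D (Z k a)) / M) := by
        field_simp
      rw [h4, ← h3]
      nlinarith
    have h2 := Finset.sum_le_sum fun k (_ : k ∈ Finset.range M) => h1 k
    rw [Finset.sum_range_sub (fun k : ℕ => M * Fm D w ((k : ℕ) / M) (Z k a))] at h2
    have h5 : cc D w (cap D P a) ≤ Fm D w ((M : ℕ) / M) (Z M a) := by
      rw [div_self hMne, ← cc_eq_Fm]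
      have h6 := inter_le (Fm D w 1) P (Qf T) (Nin D a) (fun s _ Z1 hZ1 =>
        row_step hw zero_le_one (Finset.Subset.refl (P s)) (hPQ s)
          (fun Z2 h7 h8 => by rw [← cc_eq_Fm, ← cc_eq_Fm]; exact hopt s Z2 h7 h8) Z1 hZ1)
        (Z M a) (fun s hs x hx => mem_cap.1 (hZ2 M a hx) s hs)
      have h7 : ((Z M a).filter fun x => ∀ s ∈ Nin D a, x ∈ P s) = cap D P a := by
        ext x
        rw [Finset.mem_filter, mem_cap]
        exact ⟨fun h8 => h8.2, fun h8 => ⟨hZ1 M a (mem_cap.2 h8), h8⟩⟩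
      rw [h7, ← cc_eq_Fm, ← cc_eq_Fm] at h6
      exact h6
    have h6 : Fm D w ((0 : ℕ) / M) (Z 0 a) ≤ -W w (cap D (Qf T) a) := by
      refine (hZ4 0 a (cap D (Qf T) a) (hcapPQ a) (Finset.Subset.refl _)).trans ?_
      unfold Fm
      simp
    -- shift the index
    have h7 : ∑ k ∈ Finset.range M, W w (cl D (Z k a)) ≤
        ∑ k ∈ Finset.range M, W w (cl D (Z (k + 1) a)) + ∑ v, w v := by
      have h8 := Finset.sum_range_succ (fun k => W w (cl D (Z k a))) M
      have h9 := Finset.sum_range_succ' (fun k => W w (cl D (Z k a))) M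
      have h10 : W w (cl D (Z 0 a)) ≤ ∑ v, w v := W_mono hw (Finset.subset_univ _)
      have h11 := W_nonneg hw (cl D (Z M a))
      linarith
    have h8 : ∑ k ∈ Finset.range M, W w (cl D (Z (k + 1) a)) ≤
        ∑ k ∈ Finset.range M, W w (cl D (cap D (U (k + 1)) a)) :=
      Finset.sum_le_sum fun k _ => W_mono hw (cl_mono (hZ3 (k + 1) a))
    nlinarith
  -- costs of the inner cuts
  have hcost : ∀ k, m ≤ ∑ a, w a * cc D w (cap D P a) +
      ∑ a, w a * (W w (cl D (U k a)) - W w (cl D (cap D (U k) a))) := by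
    intro k
    refine (hm _ _ (inner_feasible h (hU1 k) (hU2 k))).trans ?_
    unfold cost
    have := inner_count hw h.arcT (hU2 k)
    linarith
  have hsum : (M : ℝ) * m ≤ ∑ k ∈ Finset.range M, (∑ a, w a * cc D w (cap D P a) +
      ∑ a, w a * (W w (cl D (U (k + 1) a)) - W w (cl D (cap D (U (k + 1)) a)))) := by
    have h1 : (M : ℝ) * m = ∑ _k ∈ Finset.range M, m := by
      rw [Finset.sum_const, Finset.card_range, nsmul_eq_mul]
    rw [h1]
    exact Finset.sum_le_sum fun k _ => hcost (k + 1)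
  have hsum2 : ∑ k ∈ Finset.range M, (∑ a, w a * cc D w (cap D P a) +
      ∑ a, w a * (W w (cl D (U (k + 1) a)) - W w (cl D (cap D (U (k + 1)) a)))) =
      ∑ a, w a * (M * cc D w (cap D P a) + ∑ k ∈ Finset.range M, W w (cl D (U (k + 1) a)) -
        ∑ k ∈ Finset.range M, W w (cl D (cap D (U (k + 1)) a))) := by
    rw [Finset.sum_add_distrib, Finset.sum_const, Finset.card_range, nsmul_eq_mul,
      Finset.mul_sum]
    rw [Finset.sum_comm (s := Finset.range M) (t := Finset.univ)]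
    rw [← Finset.sum_add_distrib]
    refine Finset.sum_congr rfl fun a _ => ?_
    rw [← Finset.mul_sum, Finset.sum_sub_distrib]
    ring
  have hrow : ∀ a, w a * (M * cc D w (cap D P a) +
      ∑ k ∈ Finset.range M, W w (cl D (U (k + 1) a)) -
        ∑ k ∈ Finset.range M, W w (cl D (cap D (U (k + 1)) a))) ≤
      w a * (M * (cc D w (P a) + (W w (Qf T a) - W w (cap D (Qf T) a))) + ∑ v, w v) := by
    intro a
    refine mul_le_mul_of_nonneg_left ?_ (hw a)
    have h1 := env1 a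
    have h2 := env2 a
    nlinarith
  have hfin : ∑ a, w a * (M * (cc D w (P a) + (W w (Qf T a) - W w (cap D (Qf T) a))) +
      ∑ v, w v) ≤ M * cost D w P T + (∑ v, w v) * (∑ v, w v) := by
    have h1 := outer_count hw h
    have h2 : ∑ a, w a * (M * (cc D w (P a) + (W w (Qf T a) - W w (cap D (Qf T) a))) +
        ∑ v, w v) = M * (∑ a, w a * cc D w (P a) +
          ∑ a, w a * (W w (Qf T a) - W w (cap D (Qf T) a))) + (∑ v, w v) * (∑ v, w v) := by
      rw [← Finset.sum_add_distrib, Finset.mul_sum, Finset.sum_mul, ← Finset.sum_add_distrib]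
      refine Finset.sum_congr rfl fun a _ => ?_
      ring
    rw [h2]
    unfold cost
    nlinarith
  calc (M : ℝ) * m ≤ _ := hsum
    _ = _ := hsum2
    _ ≤ _ := Finset.sum_le_sum fun a _ => hrow a
    _ ≤ _ := hfin

theorem le_of_forall_nat {m c C : ℝ} (h : ∀ M : ℕ, 0 < M → (M : ℝ) * m ≤ M * c + C) :
    m ≤ c := by
  by_contra hcon
  push Not at hcon
  obtain ⟨n, hn⟩ := exists_nat_gt (C / (m - c))
  have h1 : 0 < m - c := by linarith
  have h2 : C < n * (m - c) := by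
    rwa [div_lt_iff₀ h1] at hn
  have h3 := h (n + 1) (Nat.succ_pos _)
  push_cast at h3
  nlinarith

/-- **m1 ≤ m2** for row optimal pairs. -/
theorem m12_opt (hw : ∀ v, 0 ≤ w v) {m : ℝ} (hm : ∀ X Y, Inner D X Y → m ≤ cost D w X Y)
    {P T : V → Finset V} (h : Outer D P T)
    (hopt : ∀ s, ∀ Z, P s ⊆ Z → Z ⊆ Qf T s → cc D w (P s) ≤ cc D w Z) :
    m ≤ cost D w P T :=
  le_of_forall_nat fun M hM => key hw hm h hopt M hM

/-- **m1 ≤ m2**: every lower bound for the cost of the inner pairs is a lower bound for the cost of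
the outer pairs. -/
theorem m12 (hw : ∀ v, 0 ≤ w v) {m : ℝ} (hm : ∀ X Y, Inner D X Y → m ≤ cost D w X Y)
    {P T : V → Finset V} (h : Outer D P T) : m ≤ cost D w P T := by
  have hPQ : ∀ s, P s ⊆ Qf T s := by
    intro s x hx
    rw [mem_Qf]
    by_cases hxs : x = s
    · exact Or.inl hxs
    · exact Or.inr (h.compat s x (fun h1 => hxs h1.symm) hx)
  have hex : ∀ s, ∃ Z, P s ⊆ Z ∧ Z ⊆ Qf T s ∧
      ∀ Z', P s ⊆ Z' → Z' ⊆ Qf T s → cc D w Z ≤ cc D w Z' :=
    fun s => exists_min_between (P s) (Qf T s) (hPQ s) (cc D w)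
  choose R hR1 hR2 hR3 using hex
  have hR : Outer D R T :=
    { memP := fun a => hR1 a (h.memP a)
      memT := h.memT
      arcP := fun a b hab => hR1 a (h.arcP a b hab)
      arcT := h.arcT
      compat := by
        intro a b hab hb
        rcases mem_Qf.1 (hR2 a hb) with h1 | h1
        · exact absurd h1.symm hab
        · exact h1 }
  have h1 := m12_opt hw hm hR (fun s Z h2 h3 => hR3 s Z ((hR1 s).trans h2) h3)
  refine h1.trans ?_
  unfold cost
  have h2 : ∑ a, w a * cc D w (R a) ≤ ∑ a, w a * cc D w (P a) :=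
    Finset.sum_le_sum fun a _ => mul_le_mul_of_nonneg_left
      (hR3 a (P a) (Finset.Subset.refl _) (hPQ a)) (hw a)
  linarith

end Vale.Agent.P038.H132
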